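import Vale.Agent.P207.N4.Dim
import Vale.Agent.P207.H582.Flip

/-!
# P207, line N4: the flip of frames, all dimensions
-/

namespace Vale.Agent.P207.N4.Q

export Vale.Agent.P207.H582 (sgv sgv_zero sgv_succ flipM flipM_sq flipO flipO_sq flipM_zero flipM_succ
  flipO_apply flipF flipF_flipF continuous_flipF Rf_flip Km_flip hF_neg horNeg)

end Vale.Agent.P207.N4.Q
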