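import Vale.Agent.P207.N4.Dim
import Vale.Agent.P207.N4.Q.FlipFr

/-!
# P207, line N4: `flipF_rot`, `det_inv`, all dimensions
-/

namespace Vale.Agent.P207.N4.Q.WD

export Vale.Agent.P207.H582 (flipF_rot det_inv)

end Vale.Agent.P207.N4.Q.WD
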